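import Mathlib
import Vale.Agent.Lib.P137.helper41.Defs

/-!
# P137 (helper51, pool leaf BR6): the tail integral of `|G'|` for an antitone `G ≥ 0`

For an antitone function `G : ℝ → ℝ` with `G ≥ 0`, the integral of `|G'|` over `(ρ, ∞)` is at
most `G ρ` (the derivative is taken with the convention `deriv G s = 0` where `G` is not
differentiable).
-/

namespace Vale.Agent.Lib.P137.H51

open Vale.Agent.Lib.P137 MeasureTheory Metric Set Filter

open scoped ENNReal NNReal Topology

/-- On a bounded interval `(ρ, b]`: the integral of `|G'|` is at most `G ρ`. -/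
theorem br6_Ioc_le (G : ℝ → ℝ) (hG : Antitone G) (hG0 : ∀ t, 0 ≤ G t) (ρ b : ℝ) (hρb : ρ ≤ b) :
    ∫⁻ s in Ioc ρ b, ENNReal.ofReal |deriv G s| ≤ ENNReal.ofReal (G ρ) := by
  have hf : Monotone (fun s => - G s) := fun x y hxy => neg_le_neg (hG hxy)
  have habs : ∀ s, |deriv G s| = deriv (fun s => - G s) s := fun s => by
    rw [deriv.fun_neg, abs_of_nonpos hG.deriv_nonpos]
  have hint : IntervalIntegrable (deriv (fun s => - G s)) volume ρ b :=
    (hf.monotoneOn (uIcc ρ b)).intervalIntegrable_deriv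
  have hmem := (hf.monotoneOn (uIcc ρ b)).intervalIntegral_deriv_mem_uIcc
  have hGb : G b ≤ G ρ := hG hρb
  have h0 : (0 : ℝ) ≤ - G b - - G ρ := by linarith
  rw [uIcc_of_le h0] at hmem
  have hle : ∫ x in ρ..b, deriv (fun s => - G s) x ≤ G ρ := by
    have h2 := hmem.2
    have h3 := hG0 b
    linarith
  simp_rw [habs]
  rw [← ofReal_integral_eq_lintegral_ofReal]
  · apply ENNReal.ofReal_le_ofReal
    rw [← intervalIntegral.integral_of_le hρb]
    exact hle
  · exact (intervalIntegrable_iff_integrableOn_Ioc_of_le hρb).1 hint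
  · exact Filter.Eventually.of_forall fun s => by
      show (0 : ℝ) ≤ deriv (fun s => - G s) s
      rw [← habs]
      exact abs_nonneg _

/-- Pool leaf BR6: for an antitone `G ≥ 0`, the integral of `|G'|` over `(ρ, ∞)` is at most
`G ρ`. -/
theorem tail_deriv_le (G : ℝ → ℝ) (hG : Antitone G) (hG0 : ∀ t, 0 ≤ G t) (ρ : ℝ) :
    ∫⁻ s in Ioi ρ, ENNReal.ofReal |deriv G s| ≤ ENNReal.ofReal (G ρ) := by
  have hU : Ioi ρ = ⋃ N : ℕ, Ioc ρ (ρ + N + 1) := by
    ext s
    simp only [mem_Ioi, mem_iUnion, mem_Ioc]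
    constructor
    · intro hs
      obtain ⟨N, hN⟩ := exists_nat_ge (s - ρ)
      exact ⟨N, hs, by linarith⟩
    · rintro ⟨N, hs, _⟩
      exact hs
  have hdir : Directed (· ⊆ ·) (fun N : ℕ => Ioc ρ (ρ + N + 1)) := by
    refine Monotone.directed_le ?_
    intro M N hMN
    apply Ioc_subset_Ioc_right
    have : (M : ℝ) ≤ N := Nat.cast_le.2 hMN
    linarith
  rw [hU, setLIntegral_iUnion_of_directed _ hdir]
  refine iSup_le fun N => br6_Ioc_le G hG hG0 ρ _ ?_
  have : (0 : ℝ) ≤ N := Nat.cast_nonneg N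
  linarith

end Vale.Agent.Lib.P137.H51
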