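import Mathlib
import Vale.Agent.Lib.P137.Defs

/-!
# P137 (helper51, second copy of pool leaf E): the radial variation is at most the weighted
integral of the profile

`radialVar d G ≤ (d - 1) * ∫_0^∞ ρ^(d-2) G(ρ) dρ` for a profile `G` that is nonincreasing on
`(0, ∞)`: Abel summation, by induction on the number of division points.
-/

open MeasureTheory

namespace Vale.Agent.Lib.P137.H51

open Vale.Agent.Lib.P137

/-- `(k + 1) * ∫_(a,b] t^k dt = b^(k+1) - a^(k+1)` in extended nonnegative reals. -/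
theorem jE_pow (k : ℕ) (a b : ℝ) (ha : 0 ≤ a) (hab : a ≤ b) :
    ((k + 1 : ℕ) : ENNReal) * ∫⁻ t in Set.Ioc a b, ENNReal.ofReal (t ^ k) =
      ENNReal.ofReal (b ^ (k + 1) - a ^ (k + 1)) := by
  have h1 : ∫⁻ t in Set.Ioc a b, ENNReal.ofReal (t ^ k) =
      ENNReal.ofReal (∫ t in Set.Ioc a b, t ^ k) := by
    rw [ofReal_integral_eq_lintegral_ofReal]
    · exact (continuous_pow k).integrableOn_Ioc
    · exact (ae_restrict_iff' measurableSet_Ioc).2
        (Filter.Eventually.of_forall fun t ht => pow_nonneg (le_trans ha ht.1.le) k)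
  have h2 : ∫ t in Set.Ioc a b, t ^ k = (b ^ (k + 1) - a ^ (k + 1)) / ((k : ℝ) + 1) := by
    rw [← intervalIntegral.integral_of_le hab, integral_pow]
  have h3 : (0 : ℝ) ≤ ((k + 1 : ℕ) : ℝ) := Nat.cast_nonneg _
  rw [h1, h2, ← ENNReal.ofReal_natCast (k + 1), ← ENNReal.ofReal_mul h3]
  congr 1
  push_cast
  field_simp

/-- One piece of the Abel summation: if `G ≥ c` on `(a, b]` then
`(b^(k+1) - a^(k+1)) * c ≤ (k + 1) * ∫_(a,b] t^k G(t) dt`. -/
theorem jE_piece (k : ℕ) (G : ℝ → ENNReal) (a b : ℝ) (ha : 0 ≤ a) (hab : a ≤ b) (c : ENNReal)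
    (hc : ∀ t ∈ Set.Ioc a b, c ≤ G t) :
    ENNReal.ofReal (b ^ (k + 1) - a ^ (k + 1)) * c ≤
      ((k + 1 : ℕ) : ENNReal) * ∫⁻ t in Set.Ioc a b, ENNReal.ofReal (t ^ k) * G t := by
  have h1 : ∫⁻ t in Set.Ioc a b, ENNReal.ofReal (t ^ k) * c ≤
      ∫⁻ t in Set.Ioc a b, ENNReal.ofReal (t ^ k) * G t :=
    setLIntegral_mono' measurableSet_Ioc fun t ht => by
      have := hc t ht
      gcongr
  have h2 : ∫⁻ t in Set.Ioc a b, ENNReal.ofReal (t ^ k) * c =
      (∫⁻ t in Set.Ioc a b, ENNReal.ofReal (t ^ k)) * c :=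
    lintegral_mul_const c (ENNReal.measurable_ofReal.comp (measurable_id.pow_const k))
  calc ENNReal.ofReal (b ^ (k + 1) - a ^ (k + 1)) * c
      = ((k + 1 : ℕ) : ENNReal) * (∫⁻ t in Set.Ioc a b, ENNReal.ofReal (t ^ k) * c) := by
        rw [h2, ← mul_assoc, jE_pow k a b ha hab]
    _ ≤ _ := by gcongr

/-- The Abel summation with its boundary term, by induction on the number of division
points. -/
theorem jE_main (k : ℕ) (G : ℝ → ENNReal) (hG : AntitoneOn G (Set.Ioi 0)) :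
    ∀ (n : ℕ) (ρ : Fin (n + 1) → ℝ), StrictMono ρ → 0 < ρ 0 →
      (∑ j : Fin n, ENNReal.ofReal (ρ j.castSucc ^ (k + 1)) *
          (G (ρ j.castSucc) - G (ρ j.succ)))
        + ENNReal.ofReal (ρ (Fin.last n) ^ (k + 1)) * G (ρ (Fin.last n)) ≤
      ((k + 1 : ℕ) : ENNReal) *
        ∫⁻ t in Set.Ioc 0 (ρ (Fin.last n)), ENNReal.ofReal (t ^ k) * G t := by
  intro n
  induction n with
  | zero =>
    intro ρ hρ h0
    have h := jE_piece k G 0 (ρ 0) le_rfl h0.le (G (ρ 0))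
      (fun t ht => hG (Set.mem_Ioi.2 ht.1) (Set.mem_Ioi.2 h0) ht.2)
    have e : Fin.last 0 = (0 : Fin 1) := rfl
    have z : (0 : ℝ) ^ (k + 1) = 0 := by simp
    rw [z, sub_zero] at h
    rw [e]
    simpa using h
  | succ n ih =>
    intro ρ hρ h0
    have hρ' : StrictMono (fun j : Fin (n + 1) => ρ j.castSucc) :=
      fun i j hij => hρ (Fin.castSucc_lt_castSucc_iff.2 hij)
    have h0' : 0 < (fun j : Fin (n + 1) => ρ j.castSucc) 0 := by
      show 0 < ρ (Fin.castSucc 0)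
      rw [Fin.castSucc_zero]
      exact h0
    have IH := ih (fun j : Fin (n + 1) => ρ j.castSucc) hρ' h0'
    have hr : 0 < ρ (Fin.last n).castSucc :=
      lt_of_lt_of_le h0 (hρ.monotone (Fin.zero_le _))
    have hrs : ρ (Fin.last n).castSucc < ρ (Fin.last (n + 1)) :=
      hρ (Fin.castSucc_lt_last _)
    have hs : 0 < ρ (Fin.last (n + 1)) := hr.trans hrs
    have hg : G (ρ (Fin.last (n + 1))) ≤ G (ρ (Fin.last n).castSucc) :=
      hG (Set.mem_Ioi.2 hr) (Set.mem_Ioi.2 hs) hrs.le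
    have hpw : ρ (Fin.last n).castSucc ^ (k + 1) ≤ ρ (Fin.last (n + 1)) ^ (k + 1) :=
      pow_le_pow_left₀ hr.le hrs.le _
    have ha' : ENNReal.ofReal (ρ (Fin.last (n + 1)) ^ (k + 1)) =
        ENNReal.ofReal (ρ (Fin.last n).castSucc ^ (k + 1)) +
          ENNReal.ofReal (ρ (Fin.last (n + 1)) ^ (k + 1) - ρ (Fin.last n).castSucc ^ (k + 1)) := by
      rw [← ENNReal.ofReal_add (pow_nonneg hr.le _) (sub_nonneg.2 hpw)]
      congr 1
      ring
    have hpiece := jE_piece k G (ρ (Fin.last n).castSucc) (ρ (Fin.last (n + 1))) hr.le hrs.le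
      (G (ρ (Fin.last (n + 1))))
      (fun t ht => hG (Set.mem_Ioi.2 (hr.trans ht.1)) (Set.mem_Ioi.2 hs) ht.2)
    have hunion : ∫⁻ t in Set.Ioc 0 (ρ (Fin.last (n + 1))), ENNReal.ofReal (t ^ k) * G t =
        (∫⁻ t in Set.Ioc 0 (ρ (Fin.last n).castSucc), ENNReal.ofReal (t ^ k) * G t) +
          ∫⁻ t in Set.Ioc (ρ (Fin.last n).castSucc) (ρ (Fin.last (n + 1))),
            ENNReal.ofReal (t ^ k) * G t := by
      rw [← Set.Ioc_union_Ioc_eq_Ioc hr.le hrs.le]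
      exact lintegral_union measurableSet_Ioc (Set.Ioc_disjoint_Ioc_of_le le_rfl)
    rw [Fin.sum_univ_castSucc, Fin.succ_last, hunion, mul_add]
    simp only [Fin.succ_castSucc]
    have key : ENNReal.ofReal (ρ (Fin.last n).castSucc ^ (k + 1)) *
          (G (ρ (Fin.last n).castSucc) - G (ρ (Fin.last (n + 1)))) +
        ENNReal.ofReal (ρ (Fin.last (n + 1)) ^ (k + 1)) * G (ρ (Fin.last (n + 1))) =
        ENNReal.ofReal (ρ (Fin.last n).castSucc ^ (k + 1)) * G (ρ (Fin.last n).castSucc) +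
          ENNReal.ofReal (ρ (Fin.last (n + 1)) ^ (k + 1) - ρ (Fin.last n).castSucc ^ (k + 1)) *
            G (ρ (Fin.last (n + 1))) := by
      rw [ha', add_mul, ← add_assoc, ← mul_add, tsub_add_cancel_of_le hg]
    rw [add_assoc, key, ← add_assoc]
    exact add_le_add IH hpiece

/-- Pool leaf E: for a profile `G` nonincreasing on `(0, ∞)` and `d ≥ 2`,
`radialVar d G ≤ (d - 1) * ∫_0^∞ ρ^(d-2) G(ρ) dρ`. -/
theorem radialVar_le_integral {d : ℕ} (hd : 2 ≤ d) (G : ℝ → ENNReal)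
    (hG : AntitoneOn G (Set.Ioi 0)) :
    radialVar d G ≤ ((d - 1 : ℕ) : ENNReal) *
      ∫⁻ ρ in Set.Ioi (0 : ℝ), ENNReal.ofReal (ρ ^ (d - 2)) * G ρ := by
  obtain ⟨k, rfl⟩ : ∃ k, d = k + 2 := ⟨d - 2, by omega⟩
  have e1 : k + 2 - 1 = k + 1 := rfl
  have e2 : k + 2 - 2 = k := rfl
  unfold radialVar
  rw [e1, e2]
  refine iSup_le fun n => iSup_le fun ρ => iSup_le fun h => ?_
  have hm := jE_main k G hG n ρ h.1 h.2
  refine le_trans (le_trans le_self_add hm) ?_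
  gcongr
  exact Set.Ioc_subset_Ioi_self

end Vale.Agent.Lib.P137.H51
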